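import Mathlib
import Vale.Agent.P080.Defs

/-!
Basic definitions for the regularity theory of infinity-harmonic functions on open subsets of
three-dimensional Euclidean space.
-/

noncomputable section

open MeasureTheory Filter Topology
open scoped RealInnerProductSpace ContDiff

namespace Vale.Agent.P080C1

/-- Three-dimensional Euclidean space. -/
abbrev E3 : Type := EuclideanSpace ℝ (Fin 3)

/-- Viscosity solutions of the infinity Laplace equation on an open set. -/
def IsInfHarmonicOn (O : Set E3) (u : E3 → ℝ) : Prop :=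
  ContinuousOn u O ∧ ∀ (φ : E3 → ℝ), ∀ z ∈ O, ContDiffAt ℝ 2 φ z →
    (IsLocalMax (fun x => u x - φ x) z → 0 ≤ P080.infLap φ z) ∧
    (IsLocalMin (fun x => u x - φ x) z → P080.infLap φ z ≤ 0)

/-- The coordinate unit vectors. -/
def ee (i : Fin 3) : E3 := EuclideanSpace.single i 1

/-- Partial derivative. -/
def pd (i : Fin 3) (f : E3 → ℝ) (x : E3) : ℝ := fderiv ℝ f x (ee i)

/-- Second partial derivative. -/
def pd2 (i j : Fin 3) (f : E3 → ℝ) (x : E3) : ℝ := pd i (pd j f) x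

/-- The Laplacian. -/
def lap (f : E3 → ℝ) (x : E3) : ℝ := ∑ i, pd2 i i f x

/-- `⟨D²v Dv, Dv⟩`. -/
def hessQ (v : E3 → ℝ) (x : E3) : ℝ := ∑ i, ∑ j, pd i v x * pd j v x * pd2 i j v x

/-- The residual of the regularised equation. -/
def resid (κ : ℝ) (v : E3 → ℝ) (x : E3) : ℝ := hessQ v x + κ * lap v x

/-- The norm of the gradient. -/
def gnorm (v : E3 → ℝ) (x : E3) : ℝ := Real.sqrt (∑ i, pd i v x ^ 2)

/-- The squared norm of the Hessian. -/
def hessSq (v : E3 → ℝ) (x : E3) : ℝ := ∑ i, ∑ j, pd2 i j v x ^ 2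

/-- The squared norm of the gradient of the gradient norm. -/
def dGnormSq (v : E3 → ℝ) (x : E3) : ℝ := ∑ i, pd i (gnorm v) x ^ 2

/-- `u` on the bounded open set `O` is the uniform limit of smooth functions `v n`, with uniformly
bounded gradient, which solve the regularised equations with parameters `κ n → 0` up to errors that
vanish faster than `exp (-B / κ n)` for every `B`. -/
structure IsApprox (O : Set E3) (u : E3 → ℝ) (v : ℕ → E3 → ℝ) (κ : ℕ → ℝ) : Prop where
  isOpen : IsOpen O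
  bounded : Bornology.IsBounded O
  smooth : ∀ n, ContDiffOn ℝ ∞ (v n) O
  kappa_pos : ∀ n, 0 < κ n
  kappa_lim : Tendsto κ atTop (𝓝 0)
  conv : TendstoUniformlyOn v u atTop O
  grad_bound : ∃ B : ℝ, ∀ n, ∀ x ∈ O, gnorm (v n) x ≤ B
  err_int : ∀ n, IntegrableOn
    (fun x => |resid (κ n) (v n) x| * (1 + Real.sqrt (hessSq (v n) x))) O volume
  err_lim : ∀ B : ℝ, Tendsto (fun n => Real.exp (B / κ n) * ∫ x in O,
    |resid (κ n) (v n) x| * (1 + Real.sqrt (hessSq (v n) x))) atTop (𝓝 0)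

/-- Approximants which increase in the direction `e₀`; the errors vanish also after division by
the norm of the gradient. -/
structure IsModel (O : Set E3) (e₀ : E3) (u : E3 → ℝ) (v : ℕ → E3 → ℝ) (κ : ℕ → ℝ) : Prop
    extends IsApprox O u v κ where
  norm_dir : ‖e₀‖ = 1
  harmonic : IsInfHarmonicOn O u
  mono : ∀ n, ∀ x ∈ O, 0 < fderiv ℝ (v n) x e₀
  err_div_int : ∀ n, IntegrableOn
    (fun x => |resid (κ n) (v n) x| * (1 + Real.sqrt (hessSq (v n) x)) / gnorm (v n) x) O volume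
  err_div_lim : ∀ B : ℝ, Tendsto (fun n => Real.exp (B / κ n) * ∫ x in O,
    |resid (κ n) (v n) x| * (1 + Real.sqrt (hessSq (v n) x)) / gnorm (v n) x) atTop (𝓝 0)

/-- The identity up to `3/2`, continued to a `C¹` function bounded by `2`. -/
def capR (t : ℝ) : ℝ :=
  if t ≤ 3 / 2 then t else if t ≤ 5 / 2 then t - (t - 3 / 2) ^ 2 / 2 else 2

/-- The capped norm of the gradient. -/
def rnorm (v : E3 → ℝ) (x : E3) : ℝ := capR (gnorm v x)

/-- The convex quantity `7/8 |p|² - p₃ + p₃²/8` at a vector `p`. -/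
def qval (p : E3) : ℝ := 7 / 8 * ‖p‖ ^ 2 - p 2 + p 2 ^ 2 / 8

/-- The quantity `qval` at the gradient of `v`. -/
def qfun (v : E3 → ℝ) (x : E3) : ℝ := qval (gradient v x)

/-- The cylinder of half-length `R` and radius `ρ` around `x` with axis `q` (for `q ≠ 0`). -/
def cyl (x q : E3) (R ρ : ℝ) : Set E3 :=
  {y | |⟪q, y - x⟫| ≤ R * ‖q‖ ∧ ‖y - x‖ ^ 2 * ‖q‖ ^ 2 - ⟪q, y - x⟫ ^ 2 ≤ (ρ * ‖q‖) ^ 2}

/-- The straight cylinder around the third axis. -/
def cyl₀ (R ρ : ℝ) : Set E3 := cyl 0 (ee 2) R ρ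

/-- `u` is within `δ` of an affine function of slope `q` on `s`. -/
def FlatOn (u : E3 → ℝ) (s : Set E3) (q : E3) (δ : ℝ) : Prop :=
  ∃ c : ℝ, ∀ y ∈ s, |u y - (c + ⟪q, y⟫)| ≤ δ

/-- The symmetric second difference. -/
def diff2 (g : E3 → ℝ) (w y : E3) : ℝ := g (y + w) + g (y - w) - 2 * g y

/-- Squared second differences with steps up to `a`, integrated over `S`, divided by `a²`. -/
def testQ (g : E3 → ℝ) (S : Set E3) (a : ℝ) : ℝ :=
  (∫ w in Metric.ball (0 : E3) a, ∫ y in S, diff2 g w y ^ 2) /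
    (a ^ 2 * volume.real (Metric.ball (0 : E3) a))

end Vale.Agent.P080C1
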