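import Vale.Agent.P080C1.Defs

/-!
Invariance of the notions of `Defs` under similarities of space and affine changes of the values.
-/

noncomputable section

open MeasureTheory Filter Topology Set
open scoped RealInnerProductSpace ContDiff

namespace Vale.Agent.P080C1

/-- The similarity `y ↦ x₀ + R • A y`. -/
def simMap (x₀ : E3) (R : ℝ) (A : E3 ≃ₗᵢ[ℝ] E3) (y : E3) : E3 := x₀ + R • A y

/-- The function `u` read through a similarity, with values normalised by `c` and `s`. -/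
def simFun (x₀ : E3) (R : ℝ) (A : E3 ≃ₗᵢ[ℝ] E3) (c s : ℝ) (u : E3 → ℝ) (y : E3) : ℝ :=
  (s * R)⁻¹ * (u (simMap x₀ R A y) - c)

variable {x₀ : E3} {R : ℝ} {A : E3 ≃ₗᵢ[ℝ] E3} {c s : ℝ} {u : E3 → ℝ}

/-- The inverse similarity. -/
def simInv (x₀ : E3) (R : ℝ) (A : E3 ≃ₗᵢ[ℝ] E3) (x : E3) : E3 := A.symm (R⁻¹ • (x - x₀))

theorem simMap_simInv (hR : R ≠ 0) (x : E3) : simMap x₀ R A (simInv x₀ R A x) = x := by
  simp [simMap, simInv, smul_smul, hR]

theorem simInv_simMap (hR : R ≠ 0) (y : E3) : simInv x₀ R A (simMap x₀ R A y) = y := by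
  simp [simMap, simInv, smul_smul, hR]

theorem continuous_simMap : Continuous (simMap x₀ R A) := by
  unfold simMap; fun_prop

theorem contDiff_simMap {n : WithTop ℕ∞} : ContDiff ℝ n (simMap x₀ R A) :=
  contDiff_const.add ((contDiff_id.comp A.toContinuousLinearEquiv.contDiff).const_smul R)

theorem hasFDerivAt_simMap (y : E3) :
    HasFDerivAt (simMap x₀ R A) (R • (A : E3 →L[ℝ] E3)) y := by
  have := (((A : E3 →L[ℝ] E3).hasFDerivAt (x := y)).const_smul R).const_add x₀
  exact this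

theorem isOpen_preimage_simMap {O : Set E3} (hO : IsOpen O) : IsOpen (simMap x₀ R A ⁻¹' O) :=
  hO.preimage continuous_simMap

theorem bounded_preimage_simMap (hR : R ≠ 0) {O : Set E3} (hO : Bornology.IsBounded O) :
    Bornology.IsBounded (simMap x₀ R A ⁻¹' O) := by
  have h : simMap x₀ R A ⁻¹' O ⊆ simInv x₀ R A '' closure O := fun y hy =>
    ⟨simMap x₀ R A y, subset_closure hy, simInv_simMap hR y⟩
  refine (IsCompact.image hO.isCompact_closure ?_).isBounded.subset h
  unfold simInv; fun_prop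

theorem simFun_apply (y : E3) :
    simFun x₀ R A c s u y = (s * R)⁻¹ * (u (simMap x₀ R A y) - c) := rfl

theorem hasFDerivAt_simFun (hR : R ≠ 0) {y : E3}
    (hu : DifferentiableAt ℝ u (simMap x₀ R A y)) :
    HasFDerivAt (simFun x₀ R A c s u)
      (s⁻¹ • (fderiv ℝ u (simMap x₀ R A y)).comp (A : E3 →L[ℝ] E3)) y := by
  have h := ((hu.hasFDerivAt.comp y (hasFDerivAt_simMap y)).sub_const c).const_mul (s * R)⁻¹
  refine h.congr_fderiv ?_
  ext v
  simp only [ContinuousLinearMap.smul_apply, ContinuousLinearMap.comp_apply, map_smul,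
    smul_eq_mul]
  field_simp

theorem fderiv_simFun_apply (hR : R ≠ 0) {y : E3}
    (hu : DifferentiableAt ℝ u (simMap x₀ R A y)) (a : E3) :
    fderiv ℝ (simFun x₀ R A c s u) y a = s⁻¹ * fderiv ℝ u (simMap x₀ R A y) (A a) := by
  rw [(hasFDerivAt_simFun hR hu).fderiv]
  rfl

theorem gradient_simFun (hR : R ≠ 0) {y : E3} (hu : DifferentiableAt ℝ u (simMap x₀ R A y)) :
    gradient (simFun x₀ R A c s u) y = s⁻¹ • A.symm (gradient u (simMap x₀ R A y)) := by
  refine ext_inner_right ℝ fun a => ?_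
  rw [inner_gradient_left, fderiv_simFun_apply hR hu, real_inner_smul_left,
    ← A.inner_map_map, A.apply_symm_apply, inner_gradient_left]

theorem differentiableAt_simFun_iff (hR : R ≠ 0) (hs : s ≠ 0) {y : E3} :
    DifferentiableAt ℝ (simFun x₀ R A c s u) y ↔ DifferentiableAt ℝ u (simMap x₀ R A y) := by
  refine ⟨fun h => ?_, fun h => (hasFDerivAt_simFun hR h).differentiableAt⟩
  have hi : Differentiable ℝ (simInv x₀ R A) := by unfold simInv; fun_prop
  have e : u = fun x => s * R * simFun x₀ R A c s u (simInv x₀ R A x) + c := by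
    funext x
    rw [simFun_apply, simMap_simInv hR]
    field_simp
    ring
  rw [e]
  have h' : DifferentiableAt ℝ (simFun x₀ R A c s u) (simInv x₀ R A (simMap x₀ R A y)) := by
    rwa [simInv_simMap hR]
  exact ((h'.comp _ (hi _)).const_mul (s * R)).add_const c

theorem second_simFun (hR : R ≠ 0) {y : E3} (hu : ContDiffAt ℝ 2 u (simMap x₀ R A y)) (a b : E3) :
    fderiv ℝ (fderiv ℝ (simFun x₀ R A c s u)) y a b =
      R / s * fderiv ℝ (fderiv ℝ u) (simMap x₀ R A y) (A a) (A b) := by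
  have hev : ∀ᶠ x in 𝓝 (simMap x₀ R A y), DifferentiableAt ℝ u x :=
    (hu.eventually (by simp)).mono fun x hx => hx.differentiableAt (by simp)
  have h1 : fderiv ℝ (simFun x₀ R A c s u) =ᶠ[𝓝 y]
      fun z => s⁻¹ • (fderiv ℝ u (simMap x₀ R A z)).comp (A : E3 →L[ℝ] E3) :=
    (continuous_simMap.continuousAt.eventually hev).mono
      fun z hz => (hasFDerivAt_simFun hR hz).fderiv
  have hd : DifferentiableAt ℝ (fderiv ℝ u) (simMap x₀ R A y) :=
    (hu.fderiv_right (m := 1) (by norm_num)).differentiableAt (by norm_num)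
  have h2 := ((hd.hasFDerivAt.comp y (hasFDerivAt_simMap y)).clm_comp
    (hasFDerivAt_const (A : E3 →L[ℝ] E3) y)).const_smul s⁻¹
  have h3 : fderiv ℝ (fderiv ℝ (simFun x₀ R A c s u)) y = _ := (h2.congr_of_eventuallyEq h1).fderiv
  rw [h3]
  simp [ContinuousLinearMap.comp_apply, ContinuousLinearMap.smul_apply, ContinuousLinearMap.flip_apply,
    ContinuousLinearMap.compL_apply]
  field_simp

theorem infLap_simFun (hR : R ≠ 0) {y : E3} (hu : ContDiffAt ℝ 2 u (simMap x₀ R A y)) :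
    P080.infLap (simFun x₀ R A c s u) y =
      R / s ^ 3 * P080.infLap u (simMap x₀ R A y) := by
  rw [P080.infLap, P080.infLap, second_simFun hR hu,
    gradient_simFun hR (hu.differentiableAt (by simp))]
  simp
  ring

theorem contDiffAt_simFun {n : WithTop ℕ∞} {y : E3}
    (hu : ContDiffAt ℝ n u (simMap x₀ R A y)) : ContDiffAt ℝ n (simFun x₀ R A c s u) y :=
  contDiffAt_const.mul ((hu.comp y contDiff_simMap.contDiffAt).sub contDiffAt_const)

/-- Invariance of viscosity solutions. -/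
theorem IsInfHarmonicOn.simFun {O : Set E3} (h : IsInfHarmonicOn O u) (hR : 0 < R) (hs : 0 < s)
    (x₀ : E3) (A : E3 ≃ₗᵢ[ℝ] E3) (c : ℝ) :
    IsInfHarmonicOn (simMap x₀ R A ⁻¹' O) (simFun x₀ R A c s u) := by
  have hi : ContDiff ℝ ∞ (simInv x₀ R A) := by
    unfold simInv
    exact A.symm.toContinuousLinearEquiv.contDiff.comp
      ((contDiff_id.sub contDiff_const).const_smul R⁻¹)
  refine ⟨?_, fun φ z hz hφ => ?_⟩
  · exact continuousOn_const.mul ((h.1.comp continuous_simMap.continuousOn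
      (mapsTo_preimage _ O)).sub continuousOn_const)
  set ψ : E3 → ℝ := fun x => s * R * φ (simInv x₀ R A x) + c with hψ
  have hcd : ContDiffAt ℝ 2 ψ (simMap x₀ R A z) := by
    have h1 : ContDiffAt ℝ 2 φ (simInv x₀ R A (simMap x₀ R A z)) := by
      rwa [simInv_simMap hR.ne']
    exact ((contDiffAt_const.mul (h1.comp _ (hi.contDiffAt.of_le (WithTop.coe_le_coe.2 le_top)))).add
      contDiffAt_const)
  have e : Vale.Agent.P080C1.simFun x₀ R A c s ψ = φ := by
    funext y
    simp only [simFun_apply, hψ, simInv_simMap hR.ne']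
    field_simp
    ring
  have hl := infLap_simFun (c := c) (s := s) (A := A) hR.ne' hcd
  rw [e] at hl
  have hk : 0 < R / s ^ 3 := by positivity
  have hev : ∀ x, u x - ψ x = s * R *
      (Vale.Agent.P080C1.simFun x₀ R A c s u (simInv x₀ R A x) - φ (simInv x₀ R A x)) := by
    intro x
    simp only [simFun_apply, hψ, simMap_simInv hR.ne']
    field_simp
    ring
  have hc : ContinuousAt (simInv x₀ R A) (simMap x₀ R A z) := hi.continuous.continuousAt
  have hback : Tendsto (simInv x₀ R A) (𝓝 (simMap x₀ R A z)) (𝓝 z) := by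
    simpa [ContinuousAt, simInv_simMap hR.ne'] using hc
  constructor
  · intro hm
    rw [hl]
    refine mul_nonneg hk.le ((h.2 ψ _ hz hcd).1 ?_)
    filter_upwards [hback.eventually hm] with x hx
    rw [hev, hev, simInv_simMap hR.ne']
    exact mul_le_mul_of_nonneg_left hx (by positivity)
  · intro hm
    rw [hl]
    refine mul_nonpos_of_nonneg_of_nonpos hk.le ((h.2 ψ _ hz hcd).2 ?_)
    filter_upwards [hback.eventually hm] with x hx
    rw [hev, hev, simInv_simMap hR.ne']
    exact mul_le_mul_of_nonneg_left hx (by positivity)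

theorem FlatOn.simFun {S : Set E3} {q : E3} {δ : ℝ} (h : FlatOn u S q δ) (hR : 0 < R)
    (hs : 0 < s) (x₀ : E3) (A : E3 ≃ₗᵢ[ℝ] E3) (c : ℝ) :
    FlatOn (simFun x₀ R A c s u) (simMap x₀ R A ⁻¹' S) (s⁻¹ • A.symm q) (δ / (s * R)) := by
  obtain ⟨d, hd⟩ := h
  refine ⟨(d + ⟪q, x₀⟫ - c) / (s * R), fun y hy => ?_⟩
  have := hd _ hy
  have e : Vale.Agent.P080C1.simFun x₀ R A c s u y -
      ((d + ⟪q, x₀⟫ - c) / (s * R) + ⟪s⁻¹ • A.symm q, y⟫) =
      (s * R)⁻¹ * (u (simMap x₀ R A y) - (d + ⟪q, simMap x₀ R A y⟫)) := by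
    have hq : ⟪A.symm q, y⟫ = ⟪q, A y⟫ := by rw [← A.inner_map_map, A.apply_symm_apply]
    simp only [simFun_apply, simMap, inner_add_right, real_inner_smul_left, real_inner_smul_right,
      hq]
    field_simp
    ring
  rw [e, abs_mul, abs_of_pos (by positivity : 0 < (s * R)⁻¹), inv_mul_eq_div]
  exact div_le_div_of_nonneg_right this (by positivity)

theorem FlatOn.mono {S S' : Set E3} {q : E3} {δ δ' : ℝ} (h : FlatOn u S q δ) (hS : S' ⊆ S)
    (hδ : δ ≤ δ') : FlatOn u S' q δ' := by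
  obtain ⟨d, hd⟩ := h
  exact ⟨d, fun y hy => (hd y (hS hy)).trans hδ⟩

theorem preimage_cyl (hR : 0 < R) (x q : E3) (T ρ : ℝ) :
    simMap x₀ R A ⁻¹' cyl x q T ρ =
      cyl (simInv x₀ R A x) (A.symm q) (T / R) (ρ / R) := by
  ext y
  have hd : simMap x₀ R A y - x = R • A (y - simInv x₀ R A x) := by
    rw [map_sub, smul_sub]
    simp only [simMap, simInv, A.apply_symm_apply, smul_smul, mul_inv_cancel₀ hR.ne', one_smul]
    abel
  have hq : ⟪q, A (y - simInv x₀ R A x)⟫ = ⟪A.symm q, y - simInv x₀ R A x⟫ := by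
    rw [← A.symm.inner_map_map, A.symm_apply_apply]
  simp only [mem_preimage, cyl, mem_setOf_eq, hd, real_inner_smul_right, hq, norm_smul,
    LinearIsometryEquiv.norm_map, Real.norm_eq_abs, abs_mul, abs_of_pos hR]
  refine and_congr ?_ ?_
  · rw [div_mul_eq_mul_div, le_div_iff₀ hR, mul_comm R]
  · have e : (ρ / R * ‖q‖) ^ 2 = (ρ * ‖q‖) ^ 2 / R ^ 2 := by field_simp
    rw [e, le_div_iff₀ (by positivity : 0 < R ^ 2)]
    constructor <;> intro h <;> nlinarith

theorem cyl_smul {a : ℝ} (ha : 0 < a) (x q : E3) (T ρ : ℝ) : cyl x (a • q) T ρ = cyl x q T ρ := by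
  ext y
  simp only [cyl, mem_setOf_eq, real_inner_smul_left, norm_smul, Real.norm_eq_abs, abs_mul,
    abs_of_pos ha]
  refine and_congr ?_ ?_
  · constructor <;> intro h <;> nlinarith
  · have h2 : 0 < a ^ 2 := by positivity
    constructor <;> intro h <;> nlinarith

theorem pd_eq_gradient (i : Fin 3) (f : E3 → ℝ) (x : E3) : pd i f x = gradient f x i := by
  rw [pd, ← inner_gradient_left, ee, real_inner_comm, EuclideanSpace.inner_single_left]
  simp

theorem gnorm_eq_norm (f : E3 → ℝ) (x : E3) : gnorm f x = ‖gradient f x‖ := by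
  rw [EuclideanSpace.norm_eq, gnorm]
  congr 1
  exact Finset.sum_congr rfl fun i _ => by rw [pd_eq_gradient, Real.norm_eq_abs, sq_abs]

theorem gnorm_eq_norm_fderiv (f : E3 → ℝ) (x : E3) : gnorm f x = ‖fderiv ℝ f x‖ := by
  rw [gnorm_eq_norm]
  simp [gradient]

theorem pd2_eq {f : E3 → ℝ} {x : E3} (hf : ContDiffAt ℝ 2 f x) (i j : Fin 3) :
    pd2 i j f x = fderiv ℝ (fderiv ℝ f) x (ee i) (ee j) := by
  have hd : DifferentiableAt ℝ (fderiv ℝ f) x :=
    (hf.fderiv_right (m := 1) (by norm_num)).differentiableAt (by norm_num)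
  rw [pd2, pd]
  have : pd j f = fun y => fderiv ℝ f y (ee j) := rfl
  rw [this, fderiv_clm_apply hd (differentiableAt_const _)]
  simp

theorem ee_eq_basis (i : Fin 3) : ee i = EuclideanSpace.basisFun (Fin 3) ℝ i := by
  simp [ee]

theorem sum_smul_ee (g : E3) : ∑ i, g i • ee i = g := by
  conv_rhs => rw [← (EuclideanSpace.basisFun (Fin 3) ℝ).sum_repr g]
  exact Finset.sum_congr rfl fun i _ => by simp [ee]

theorem bilin_expand (B : E3 →L[ℝ] E3 →L[ℝ] ℝ) (a b : E3) :
    B a b = ∑ i, ∑ j, a i * b j * B (ee i) (ee j) := by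
  conv_lhs => rw [← sum_smul_ee a, ← sum_smul_ee b]
  simp only [map_sum, map_smul, ContinuousLinearMap.sum_apply, ContinuousLinearMap.smul_apply,
    smul_eq_mul, Finset.mul_sum]
  rw [Finset.sum_comm]
  exact Finset.sum_congr rfl fun i _ => Finset.sum_congr rfl fun j _ => by ring

theorem hessQ_eq {f : E3 → ℝ} {x : E3} (hf : ContDiffAt ℝ 2 f x) :
    hessQ f x = P080.infLap f x := by
  rw [P080.infLap, bilin_expand, hessQ]
  simp only [pd_eq_gradient, pd2_eq hf]

theorem ortho_sum (A : E3 ≃ₗᵢ[ℝ] E3) (k l : Fin 3) :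
    ∑ i, A (ee i) k * A (ee i) l = if k = l then 1 else 0 := by
  have h1 : ∀ i m, A (ee i) m = A.symm (ee m) i := fun i m => by
    have e1 : A (ee i) m = ⟪ee m, A (ee i)⟫ := by simp [ee, EuclideanSpace.inner_single_left]
    have e2 : A.symm (ee m) i = ⟪A.symm (ee m), ee i⟫ := by
      simp [ee, EuclideanSpace.inner_single_right]
    rw [e1, e2]
    conv_rhs => rw [← A.inner_map_map, A.apply_symm_apply]
  have h2 : ∑ i, A.symm (ee k) i * A.symm (ee l) i = ⟪A.symm (ee l), A.symm (ee k)⟫ := by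
    rw [PiLp.inner_apply]
    exact Finset.sum_congr rfl fun i _ => by simp
  simp only [h1, h2, LinearIsometryEquiv.inner_map_map]
  simp [ee, EuclideanSpace.inner_single_left, eq_comm]

theorem sum_diag_invariant (B : E3 →L[ℝ] E3 →L[ℝ] ℝ) (A : E3 ≃ₗᵢ[ℝ] E3) :
    ∑ i, B (A (ee i)) (A (ee i)) = ∑ i, B (ee i) (ee i) := by
  calc ∑ i, B (A (ee i)) (A (ee i))
      = ∑ i, ∑ k, ∑ l, A (ee i) k * A (ee i) l * B (ee k) (ee l) :=
        Finset.sum_congr rfl fun i _ => bilin_expand B _ _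
    _ = ∑ k, ∑ l, (∑ i, A (ee i) k * A (ee i) l) * B (ee k) (ee l) := by
        rw [Finset.sum_comm]
        refine Finset.sum_congr rfl fun k _ => ?_
        rw [Finset.sum_comm]
        exact Finset.sum_congr rfl fun l _ => by rw [Finset.sum_mul]
    _ = _ := by simp [ortho_sum]

theorem sum_sq_linear (φ : E3 →L[ℝ] ℝ) (A : E3 ≃ₗᵢ[ℝ] E3) :
    ∑ i, φ (A (ee i)) ^ 2 = ∑ i, φ (ee i) ^ 2 := by
  have h := sum_diag_invariant ((ContinuousLinearMap.mul ℝ ℝ).bilinearComp φ φ) A
  simpa [sq] using h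

theorem sum_sq_invariant (B : E3 →L[ℝ] E3 →L[ℝ] ℝ) (A : E3 ≃ₗᵢ[ℝ] E3) :
    ∑ i, ∑ j, B (A (ee i)) (A (ee j)) ^ 2 = ∑ i, ∑ j, B (ee i) (ee j) ^ 2 := by
  simp only [sum_sq_linear _ A]
  rw [Finset.sum_comm]
  refine (Finset.sum_congr rfl fun j _ => ?_).trans (Finset.sum_comm ..)
  exact sum_sq_linear (B.flip (ee j)) A

theorem gnorm_simFun (hR : R ≠ 0) (hs : 0 < s) {y : E3}
    (hu : DifferentiableAt ℝ u (simMap x₀ R A y)) :
    gnorm (simFun x₀ R A c s u) y = gnorm u (simMap x₀ R A y) / s := by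
  rw [gnorm_eq_norm, gnorm_eq_norm, gradient_simFun hR hu, norm_smul, A.symm.norm_map,
    Real.norm_eq_abs, abs_inv, abs_of_pos hs, inv_mul_eq_div]

theorem hessSq_simFun (hR : R ≠ 0) {y : E3} (hu : ContDiffAt ℝ 2 u (simMap x₀ R A y)) :
    hessSq (simFun x₀ R A c s u) y = (R / s) ^ 2 * hessSq u (simMap x₀ R A y) := by
  simp only [hessSq, pd2_eq hu, pd2_eq (contDiffAt_simFun hu), second_simFun hR hu, mul_pow,
    ← Finset.mul_sum, sum_sq_invariant]

theorem lap_simFun (hR : R ≠ 0) {y : E3} (hu : ContDiffAt ℝ 2 u (simMap x₀ R A y)) :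
    lap (simFun x₀ R A c s u) y = R / s * lap u (simMap x₀ R A y) := by
  simp only [lap, pd2_eq hu, pd2_eq (contDiffAt_simFun hu), second_simFun hR hu,
    ← Finset.mul_sum, sum_diag_invariant]

theorem resid_simFun (hR : R ≠ 0) {y : E3} (hu : ContDiffAt ℝ 2 u (simMap x₀ R A y)) (κ : ℝ) :
    resid (κ / s ^ 2) (simFun x₀ R A c s u) y = R / s ^ 3 * resid κ u (simMap x₀ R A y) := by
  rw [resid, resid, hessQ_eq (contDiffAt_simFun hu), hessQ_eq hu, infLap_simFun hR hu,
    lap_simFun hR hu]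
  field_simp

theorem integral_comp_simMap (hR : 0 < R) (f : E3 → ℝ) :
    ∫ y, f (simMap x₀ R A y) = (R ^ 3)⁻¹ * ∫ x, f x := by
  have h1 : ∫ y, f (simMap x₀ R A y) = ∫ y, f (x₀ + R • y) :=
    (A.measurePreserving).integral_comp A.toHomeomorph.measurableEmbedding fun y => f (x₀ + R • y)
  rw [h1, Measure.integral_comp_smul_of_nonneg volume (fun z => f (x₀ + z)) R (hR := hR.le),
    finrank_euclideanSpace_fin, integral_add_left_eq_self, smul_eq_mul]

theorem integrable_comp_simMap (hR : 0 < R) {f : E3 → ℝ} (hf : Integrable f) :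
    Integrable fun y => f (simMap x₀ R A y) :=
  (A.measurePreserving.integrable_comp_emb A.toHomeomorph.measurableEmbedding).2
    ((hf.comp_add_left x₀).comp_smul hR.ne')

theorem setIntegral_comp_simMap (hR : 0 < R) {S : Set E3} (hS : MeasurableSet S) (f : E3 → ℝ) :
    ∫ y in simMap x₀ R A ⁻¹' S, f (simMap x₀ R A y) = (R ^ 3)⁻¹ * ∫ x in S, f x := by
  rw [← integral_indicator hS, ← integral_comp_simMap (x₀ := x₀) (A := A) hR,
    ← integral_indicator (continuous_simMap.measurable hS)]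
  rfl

theorem integrableOn_comp_simMap (hR : 0 < R) {S : Set E3} (hS : MeasurableSet S) {f : E3 → ℝ}
    (hf : IntegrableOn f S) :
    IntegrableOn (fun y => f (simMap x₀ R A y)) (simMap x₀ R A ⁻¹' S) := by
  rw [← integrable_indicator_iff (continuous_simMap.measurable hS)]
  exact integrable_comp_simMap hR ((integrable_indicator_iff hS).2 hf)

theorem continuous_hessSq_sqrt {O : Set E3} (hO : IsOpen O) {v : E3 → ℝ}
    (hv : ContDiffOn ℝ ∞ v O) : ContinuousOn (fun x => Real.sqrt (hessSq v x)) O := by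
  have h2 : ∀ x ∈ O, ContDiffAt ℝ 2 v x := fun x hx =>
    (hv.contDiffAt (hO.mem_nhds hx)).of_le (WithTop.coe_le_coe.2 le_top)
  have h1 : ContDiffOn ℝ 2 v O := hv.of_le (WithTop.coe_le_coe.2 le_top)
  have hc : ContinuousOn (fderiv ℝ (fderiv ℝ v)) O :=
    ((h1.fderiv_of_isOpen hO (m := 1) (by norm_num)).continuousOn_fderiv_of_isOpen hO le_rfl)
  refine Real.continuous_sqrt.comp_continuousOn ?_
  refine ContinuousOn.congr (f := fun x => ∑ i, ∑ j, fderiv ℝ (fderiv ℝ v) x (ee i) (ee j) ^ 2)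
    (continuousOn_finsetSum _ fun i _ => continuousOn_finsetSum _ fun j _ =>
      (((hc.clm_apply continuousOn_const).clm_apply continuousOn_const).pow 2))
    fun x hx => by simp only [hessSq, pd2_eq (h2 x hx)]

/-- The error densities transform with bounded factors. -/
theorem errors_simFun {O : Set E3} (hO : IsOpen O) (hR : 0 < R) (hs : 0 < s) {v : E3 → ℝ}
    (hv : ContDiffOn ℝ ∞ v O) (κ : ℝ) {w : E3 → ℝ} (hw : ∀ x ∈ O, 0 ≤ w x)
    (hint : IntegrableOn (fun x => |resid κ v x| * (1 + Real.sqrt (hessSq v x)) * w x) O) :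
    IntegrableOn (fun y => |resid (κ / s ^ 2) (simFun x₀ R A c s v) y| *
        (1 + Real.sqrt (hessSq (simFun x₀ R A c s v) y)) * w (simMap x₀ R A y))
        (simMap x₀ R A ⁻¹' O) ∧
      0 ≤ (∫ y in simMap x₀ R A ⁻¹' O, |resid (κ / s ^ 2) (simFun x₀ R A c s v) y| *
        (1 + Real.sqrt (hessSq (simFun x₀ R A c s v) y)) * w (simMap x₀ R A y)) ∧
      (∫ y in simMap x₀ R A ⁻¹' O, |resid (κ / s ^ 2) (simFun x₀ R A c s v) y| *
        (1 + Real.sqrt (hessSq (simFun x₀ R A c s v) y)) * w (simMap x₀ R A y)) ≤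
        R / s ^ 3 * max 1 (R / s) * (R ^ 3)⁻¹ *
          ∫ x in O, |resid κ v x| * (1 + Real.sqrt (hessSq v x)) * w x := by
  set k : ℝ := R / s with hk
  have hk0 : 0 < k := div_pos hR hs
  set T := simMap x₀ R A with hT
  set F : E3 → ℝ := fun x => |resid κ v x| * (1 + Real.sqrt (hessSq v x)) * w x with hF
  set G : E3 → ℝ := fun x => R / s ^ 3 * ((1 + k * Real.sqrt (hessSq v x)) /
    (1 + Real.sqrt (hessSq v x))) with hG
  have hpre : MeasurableSet (T ⁻¹' O) := continuous_simMap.measurable hO.measurableSet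
  have hG0 : ∀ x, 0 ≤ G x := fun x => by positivity
  have hGle : ∀ x, G x ≤ R / s ^ 3 * max 1 k := by
    intro x
    refine mul_le_mul_of_nonneg_left ?_ (by positivity)
    rw [div_le_iff₀ (by positivity)]
    nlinarith [le_max_left 1 k, le_max_right 1 k, Real.sqrt_nonneg (hessSq v x)]
  have heq : ∀ y ∈ T ⁻¹' O, |resid (κ / s ^ 2) (simFun x₀ R A c s v) y| *
      (1 + Real.sqrt (hessSq (simFun x₀ R A c s v) y)) * w (T y) = G (T y) * F (T y) := by
    intro y hy
    have h2 : ContDiffAt ℝ 2 v (T y) :=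
      (hv.contDiffAt (hO.mem_nhds hy)).of_le (WithTop.coe_le_coe.2 le_top)
    rw [resid_simFun hR.ne' h2, hessSq_simFun hR.ne' h2, Real.sqrt_mul (sq_nonneg _),
      Real.sqrt_sq hk0.le, abs_mul, abs_of_pos (by positivity : 0 < R / s ^ 3)]
    simp only [hG, hF, hT]
    have : 0 < 1 + Real.sqrt (hessSq v (simMap x₀ R A y)) := by positivity
    field_simp
  have hF0 : ∀ y ∈ T ⁻¹' O, 0 ≤ F (T y) := fun y hy => by
    have := hw _ hy
    positivity
  have hiF := integrableOn_comp_simMap (x₀ := x₀) (A := A) hR hO.measurableSet hint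
  have hGc : ContinuousOn (fun y => G (T y)) (T ⁻¹' O) := by
    have h1 : ContinuousOn (fun x => Real.sqrt (hessSq v x)) O := continuous_hessSq_sqrt hO hv
    have hGO : ContinuousOn G O :=
      continuousOn_const.mul ((continuousOn_const.add (continuousOn_const.mul h1)).div
        (continuousOn_const.add h1) fun x _ => by positivity)
    exact hGO.comp continuous_simMap.continuousOn (mapsTo_preimage _ _)
  have hint' : IntegrableOn (fun y => G (T y) * F (T y)) (T ⁻¹' O) := by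
    refine Integrable.bdd_mul (c := R / s ^ 3 * max 1 k) hiF
      (hGc.aestronglyMeasurable hpre) (ae_restrict_of_forall_mem hpre fun y _ => ?_)
    rw [Real.norm_eq_abs, abs_of_nonneg (hG0 _)]
    exact hGle _
  refine ⟨hint'.congr_fun (fun y hy => (heq y hy).symm) hpre, ?_, ?_⟩
  · rw [setIntegral_congr_fun hpre heq]
    exact setIntegral_nonneg hpre fun y hy => mul_nonneg (hG0 _) (hF0 y hy)
  · rw [setIntegral_congr_fun hpre heq, mul_assoc,
      ← setIntegral_comp_simMap (x₀ := x₀) (A := A) hR hO.measurableSet F, ← integral_const_mul]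
    exact setIntegral_mono_on hint' (hiF.const_mul _) hpre fun y hy =>
      mul_le_mul_of_nonneg_right (hGle _) (hF0 y hy)

/-- Invariance of approximants. -/
theorem IsApprox.simFun {O : Set E3} {v : ℕ → E3 → ℝ} {κ : ℕ → ℝ} (h : IsApprox O u v κ)
    (hR : 0 < R) (hs : 0 < s) (x₀ : E3) (A : E3 ≃ₗᵢ[ℝ] E3) (c : ℝ) :
    IsApprox (simMap x₀ R A ⁻¹' O) (simFun x₀ R A c s u)
      (fun n => simFun x₀ R A c s (v n)) (fun n => κ n / s ^ 2) := by
  have hd : ∀ n, ∀ y ∈ simMap x₀ R A ⁻¹' O, DifferentiableAt ℝ (v n) (simMap x₀ R A y) :=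
    fun n y hy => ((h.smooth n).contDiffAt (h.isOpen.mem_nhds hy)).differentiableAt (by simp)
  refine ⟨isOpen_preimage_simMap h.isOpen, bounded_preimage_simMap hR.ne' h.bounded,
    fun n y hy => (contDiffAt_simFun
      ((h.smooth n).contDiffAt (h.isOpen.mem_nhds hy))).contDiffWithinAt,
    fun n => by have := h.kappa_pos n; positivity,
    by simpa using h.kappa_lim.div_const (s ^ 2), ?_, ?_, fun n => ?_, fun B => ?_⟩
  · have h1 := h.conv.comp (simMap x₀ R A)
    rw [Metric.tendstoUniformlyOn_iff] at h1 ⊢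
    intro ε hε
    have hsR : 0 < s * R := mul_pos hs hR
    filter_upwards [h1 (ε * (s * R)) (by positivity)] with n hn y hy
    have := hn y hy
    simp only [Function.comp_apply, Real.dist_eq] at this
    rw [Real.dist_eq, simFun_apply, simFun_apply, ← mul_sub, sub_sub_sub_cancel_right, abs_mul,
      abs_of_pos (inv_pos.2 hsR), inv_mul_lt_iff₀ hsR]
    linarith
  · obtain ⟨B, hB⟩ := h.grad_bound
    refine ⟨B / s, fun n y hy => ?_⟩
    rw [gnorm_simFun hR.ne' hs (hd n y hy)]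
    exact div_le_div_of_nonneg_right (hB n _ hy) hs.le
  · simpa using (errors_simFun (c := c) (A := A) (x₀ := x₀) h.isOpen hR hs (h.smooth n) (κ n)
      (w := fun _ => 1) (fun _ _ => zero_le_one) (by simpa using h.err_int n)).1
  · have hlim := (h.err_lim (B * s ^ 2)).const_mul (R / s ^ 3 * max 1 (R / s) * (R ^ 3)⁻¹)
    rw [mul_zero] at hlim
    have key := fun n => errors_simFun (c := c) (A := A) (x₀ := x₀) h.isOpen hR hs (h.smooth n)
      (κ n) (w := fun _ => 1) (fun _ _ => zero_le_one) (by simpa using h.err_int n)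
    simp only [mul_one] at key
    refine squeeze_zero (fun n => mul_nonneg (Real.exp_pos _).le (key n).2.1) (fun n => ?_) hlim
    rw [mul_left_comm (R / s ^ 3 * max 1 (R / s) * (R ^ 3)⁻¹), div_div_eq_mul_div]
    exact mul_le_mul_of_nonneg_left (key n).2.2 (Real.exp_pos _).le

/-- Invariance of models. -/
theorem IsModel.simFun {O : Set E3} {e₀ : E3} {v : ℕ → E3 → ℝ} {κ : ℕ → ℝ}
    (h : IsModel O e₀ u v κ) (hR : 0 < R) (hs : 0 < s) (x₀ : E3) (A : E3 ≃ₗᵢ[ℝ] E3) (c : ℝ) :
    IsModel (simMap x₀ R A ⁻¹' O) (A.symm e₀) (simFun x₀ R A c s u)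
      (fun n => simFun x₀ R A c s (v n)) (fun n => κ n / s ^ 2) := by
  have hd : ∀ n, ∀ y ∈ simMap x₀ R A ⁻¹' O, DifferentiableAt ℝ (v n) (simMap x₀ R A y) :=
    fun n y hy => ((h.smooth n).contDiffAt (h.isOpen.mem_nhds hy)).differentiableAt (by simp)
  have hw : ∀ n, ∀ x ∈ O, 0 ≤ (gnorm (v n) x)⁻¹ := fun n x _ =>
    inv_nonneg.2 (Real.sqrt_nonneg _)
  have key := fun n => errors_simFun (c := c) (A := A) (x₀ := x₀) h.isOpen hR hs (h.smooth n)
    (κ n) (hw n) (by simpa only [div_eq_mul_inv] using h.err_div_int n)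
  have hmeas : MeasurableSet (simMap x₀ R A ⁻¹' O) :=
    continuous_simMap.measurable h.isOpen.measurableSet
  have heq : ∀ n, ∀ y ∈ simMap x₀ R A ⁻¹' O,
      |resid (κ n / s ^ 2) (Vale.Agent.P080C1.simFun x₀ R A c s (v n)) y| *
        (1 + Real.sqrt (hessSq (Vale.Agent.P080C1.simFun x₀ R A c s (v n)) y)) /
        gnorm (Vale.Agent.P080C1.simFun x₀ R A c s (v n)) y =
      s * (|resid (κ n / s ^ 2) (Vale.Agent.P080C1.simFun x₀ R A c s (v n)) y| *
        (1 + Real.sqrt (hessSq (Vale.Agent.P080C1.simFun x₀ R A c s (v n)) y)) *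
        (gnorm (v n) (simMap x₀ R A y))⁻¹) := by
    intro n y hy
    rw [gnorm_simFun hR.ne' hs (hd n y hy), div_div_eq_mul_div, div_eq_mul_inv]
    ring
  refine ⟨h.toIsApprox.simFun hR hs x₀ A c, by rw [A.symm.norm_map, h.norm_dir],
    h.harmonic.simFun hR hs x₀ A c, fun n y hy => ?_, fun n => ?_, fun B => ?_⟩
  · rw [fderiv_simFun_apply hR.ne' (hd n y hy), A.apply_symm_apply]
    exact mul_pos (inv_pos.2 hs) (h.mono n _ hy)
  · exact IntegrableOn.congr_fun (Integrable.const_mul (key n).1 s)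
      (fun y hy => (heq n y hy).symm) hmeas
  · have hlim := (h.err_div_lim (B * s ^ 2)).const_mul
      (s * (R / s ^ 3 * max 1 (R / s) * (R ^ 3)⁻¹))
    simp only [mul_zero, div_eq_mul_inv (|resid _ _ _| * _)] at hlim
    have hval : ∀ n, (∫ y in simMap x₀ R A ⁻¹' O,
        |resid (κ n / s ^ 2) (Vale.Agent.P080C1.simFun x₀ R A c s (v n)) y| *
        (1 + Real.sqrt (hessSq (Vale.Agent.P080C1.simFun x₀ R A c s (v n)) y)) /
        gnorm (Vale.Agent.P080C1.simFun x₀ R A c s (v n)) y) = s * ∫ y in simMap x₀ R A ⁻¹' O,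
        |resid (κ n / s ^ 2) (Vale.Agent.P080C1.simFun x₀ R A c s (v n)) y| *
        (1 + Real.sqrt (hessSq (Vale.Agent.P080C1.simFun x₀ R A c s (v n)) y)) *
        (gnorm (v n) (simMap x₀ R A y))⁻¹ := fun n => by
      rw [← integral_const_mul]
      exact setIntegral_congr_fun hmeas (heq n)
    refine squeeze_zero (fun n => ?_) (fun n => ?_) hlim
    · rw [hval]
      exact mul_nonneg (Real.exp_pos _).le (mul_nonneg hs.le (key n).2.1)
    · rw [hval, mul_left_comm (s * _), div_div_eq_mul_div, mul_assoc s]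
      exact mul_le_mul_of_nonneg_left (mul_le_mul_of_nonneg_left (key n).2.2 hs.le)
        (Real.exp_pos _).le

/-- A rotation taking the third axis to a prescribed unit vector. -/
theorem exists_rotation {q : E3} (hq : ‖q‖ = 1) : ∃ A : E3 ≃ₗᵢ[ℝ] E3, A (ee 2) = q :=
  ⟨Submodule.reflection (ℝ ∙ (ee 2 - q))ᗮ, Submodule.reflection_sub (by simp [ee, hq])⟩

end Vale.Agent.P080C1
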