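import Vale.Agent.P080C1.Defs

/-!
The intermediate statements of the regularity proof.
-/

noncomputable section

open MeasureTheory Filter Topology
open scoped RealInnerProductSpace

namespace Vale.Agent.P080C1

/-- Upper bound `qval (Dv) ≤ C ε`, outside sets of vanishing measure, for approximants of a
flat function. -/
def QLemmaProp : Prop :=
  ∃ L₀ : ℝ, 0 < L₀ ∧ ∀ L : ℝ, L₀ ≤ L → ∃ C ε₀ : ℝ, 0 < C ∧ 0 < ε₀ ∧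
    ∀ (O : Set E3) (u : E3 → ℝ) (v : ℕ → E3 → ℝ) (κ : ℕ → ℝ) (ε : ℝ),
      IsApprox O u v κ → 0 < ε → ε ≤ ε₀ → cyl₀ 1 (L * √ε) ⊆ O →
      FlatOn u (cyl₀ 1 (L * √ε)) (ee 2) ε →
      Tendsto (fun n => volume.real
        {y | y ∈ cyl₀ (3 / 4) (3 / 4 * (L * √ε)) ∧ C * ε < qfun (v n) y}) atTop (𝓝 0)

/-- The same bound for the gradient of a flat viscosity solution. -/
def QExactProp : Prop :=
  ∃ L₀ : ℝ, 0 < L₀ ∧ ∀ L : ℝ, L₀ ≤ L → ∃ C ε₀ : ℝ, 0 < C ∧ 0 < ε₀ ∧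
    ∀ (O : Set E3) (u : E3 → ℝ) (ε : ℝ),
      IsOpen O → IsInfHarmonicOn O u → 0 < ε → ε ≤ ε₀ → cyl₀ 1 (L * √ε) ⊆ O →
      FlatOn u (cyl₀ 1 (L * √ε)) (ee 2) ε →
      ∀ᵐ y ∂volume.restrict (cyl₀ (5 / 8) (5 / 8 * (L * √ε))),
        DifferentiableAt ℝ u y ∧ qfun u y ≤ C * ε

/-- Approximants of a viscosity solution on bounded convex sets. -/
def ApproxProp : Prop :=
  ∀ (O U : Set E3) (u : E3 → ℝ), IsOpen O → IsInfHarmonicOn O u → IsOpen U →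
    Bornology.IsBounded U → Convex ℝ U → closure U ⊆ O →
    ∃ (v : ℕ → E3 → ℝ) (κ : ℕ → ℝ), IsApprox U u v κ

/-- A flat viscosity solution is within `C ε²` of a model. -/
def ModelProp : Prop :=
  ∃ L₀ : ℝ, 0 < L₀ ∧ ∀ L : ℝ, L₀ ≤ L → ∃ C ε₀ : ℝ, 0 < C ∧ 0 < ε₀ ∧
    ∀ (O : Set E3) (u : E3 → ℝ) (ε : ℝ),
      IsOpen O → IsInfHarmonicOn O u → 0 < ε → ε ≤ ε₀ → cyl₀ 1 (L * √ε) ⊆ O →
      FlatOn u (cyl₀ 1 (L * √ε)) (ee 2) ε →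
      ∃ (U : Set E3) (ut : E3 → ℝ) (v : ℕ → E3 → ℝ) (κ : ℕ → ℝ),
        IsModel U (ee 2) ut v κ ∧ cyl₀ (1 / 2) (1 / 2 * (L * √ε)) ⊆ U ∧
        ∀ y ∈ cyl₀ (1 / 2) (1 / 2 * (L * √ε)), |ut y - u y| ≤ C * ε ^ 2

/-- The approximate gradients do not exceed the gradient of the limit, where this is not zero. -/
def GradUpperProp : Prop :=
  ∀ (O : Set E3) (u : E3 → ℝ) (v : ℕ → E3 → ℝ) (κ : ℕ → ℝ) (δ : ℝ),
    IsApprox O u v κ → 0 < δ →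
    Tendsto (fun n => volume.real {y | y ∈ O ∧ DifferentiableAt ℝ u y ∧ δ ≤ ‖fderiv ℝ u y‖ ∧
      ‖fderiv ℝ u y‖ + δ < gnorm (v n) y}) atTop (𝓝 0)

/-- The energy inequality in a natural cylinder. -/
def CaccioProp : Prop :=
  ∃ L₀ : ℝ, 0 < L₀ ∧ ∀ L : ℝ, L₀ ≤ L → ∃ C ε₀ : ℝ, 0 < C ∧ 0 < ε₀ ∧
    ∀ (O : Set E3) (e₀ : E3) (u : E3 → ℝ) (v : ℕ → E3 → ℝ) (κ : ℕ → ℝ) (ε : ℝ),
      IsModel O e₀ u v κ → 1 / 2 ≤ e₀ 2 → 0 < ε → ε ≤ ε₀ → cyl₀ 1 (L * √ε) ⊆ O →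
      FlatOn u (cyl₀ 1 (L * √ε)) (ee 2) ε →
      ∀ᶠ n in atTop,
        (∫ y in cyl₀ (1 / 2) (1 / 2 * (L * √ε)), dGnormSq (v n) y / gnorm (v n) y) ≤ C * ε ^ 2 ∧
        (∀ t : ℝ, |t| ≤ 1 / 2 →
          (∫ y in {y : EuclideanSpace ℝ (Fin 2) | ‖y‖ ≤ 1 / 2 * (L * √ε)},
            |rnorm (v n) !₂[y 0, y 1, t] - 1|) ≤ C * ε ^ 2) ∧
        (∫ y in cyl₀ (1 / 2) (1 / 2 * (L * √ε)), (rnorm (v n) y - 1) ^ 2) ≤ C * ε ^ 3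

/-- Square summability over dyadic scales of second differences. -/
def DorronsoroProp : Prop :=
  ∃ C : ℝ, 0 < C ∧ ∀ (g : E3 → ℝ) (a₀ : ℝ) (N : ℕ),
    0 < a₀ → ContDiff ℝ 1 g → HasCompactSupport g →
    ∑ j ∈ Finset.range N, testQ g Set.univ (a₀ / 2 ^ j) ≤ C * ∫ y, ‖fderiv ℝ g y‖ ^ 2

/-- Dichotomy: either the gradient norm has large second differences, or flatness improves
geometrically, with any prescribed margin `s`. -/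
def DichotomyProp : Prop :=
  ∃ L₀ : ℝ, 0 < L₀ ∧ ∀ L : ℝ, L₀ ≤ L → ∀ s : ℕ, ∃ (m : ℕ) (δ ε₀ : ℝ),
    s < m ∧ 0 < δ ∧ 0 < ε₀ ∧
    ∀ (O : Set E3) (e₀ : E3) (u : E3 → ℝ) (v : ℕ → E3 → ℝ) (κ : ℕ → ℝ) (ε : ℝ),
      IsModel O e₀ u v κ → 3 / 4 ≤ e₀ 2 → 0 < ε → ε ≤ ε₀ → cyl₀ 1 (L * √ε) ⊆ O →
      FlatOn u (cyl₀ 1 (L * √ε)) (ee 2) ε →
      (∃ᶠ n in atTop,
        testQ (rnorm (v n)) (cyl₀ (1 / 64) (1 / 8192 * (L * √ε))) (√ε) ≤ δ * ε ^ 2) →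
      ∀ i ≤ m, ∃ q : E3, cyl 0 q (1 / 2 ^ (m - s)) (L * √ε / 2 ^ i) ⊆ cyl₀ 1 (L * √ε) ∧
        FlatOn u (cyl 0 q (1 / 2 ^ (m - s)) (L * √ε / 2 ^ i)) q (2 ^ (m - s) / 4 ^ i * ε)

/-- Transversal Lipschitz estimate for flat models. -/
def GradientProp : Prop :=
  ∃ L C ε₀ : ℝ, 0 < L ∧ 0 < C ∧ 0 < ε₀ ∧
    ∀ (O : Set E3) (e₀ : E3) (u : E3 → ℝ) (v : ℕ → E3 → ℝ) (κ : ℕ → ℝ) (ε : ℝ),
      IsModel O e₀ u v κ → 7 / 8 ≤ e₀ 2 → 0 < ε → ε ≤ ε₀ → cyl₀ 1 (L * √ε) ⊆ O →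
      FlatOn u (cyl₀ 1 (L * √ε)) (ee 2) ε →
      ∀ᵐ y ∂volume.restrict (cyl₀ (1 / 4) (1 / 4 * (L * √ε))),
        DifferentiableAt ℝ u y ∧ |pd 2 u y - 1| ≤ C * ε ∧
          |pd 0 u y| ≤ C * √ε ∧ |pd 1 u y| ≤ C * √ε

/-- One step of the improvement of flatness for a viscosity solution. -/
def ImproveProp : Prop :=
  ∃ L θ₀ C ε₀ : ℝ, 0 < L ∧ 0 < θ₀ ∧ θ₀ ≤ 1 / 2 ∧ 0 < C ∧ 0 < ε₀ ∧
    ∀ (u : E3 → ℝ) (ε : ℝ) (O : Set E3),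
      IsOpen O → IsInfHarmonicOn O u → 0 < ε → ε ≤ ε₀ → cyl₀ 1 (L * √ε) ⊆ O →
      FlatOn u (cyl₀ 1 (L * √ε)) (ee 2) ε →
      ∃ θ ∈ Set.Icc θ₀ (1 / 2), ∃ q : E3, ‖q‖ ∈ Set.Icc (1 - C * ε) (1 + C * ε) ∧ dist q (ee 2) ≤ C * √ε ∧
        FlatOn u (cyl 0 q θ (2 * L * √(ε / 2) * θ)) q (ε / 2 * θ)

/-- Comparison of two viscosity solutions on a bounded open set. -/
def ComparisonProp : Prop :=
  ∀ (U : Set E3) (u w : E3 → ℝ) (c : ℝ), IsOpen U → Bornology.IsBounded U →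
    IsInfHarmonicOn U u → IsInfHarmonicOn U w →
    ContinuousOn u (closure U) → ContinuousOn w (closure U) →
    (∀ x ∈ frontier U, u x ≤ w x + c) → ∀ x ∈ U, u x ≤ w x + c

/-- Increasing slopes: from a point of differentiability `y` some boundary point of every
surrounding bounded open set is reached with slope at least `‖Du y‖`. -/
def ConeSlopeProp : Prop :=
  ∀ (O U : Set E3) (u : E3 → ℝ) (y : E3), IsOpen O → IsInfHarmonicOn O u → IsOpen U →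
    Bornology.IsBounded U → closure U ⊆ O → y ∈ U → DifferentiableAt ℝ u y →
    ∃ z ∈ frontier U, ‖fderiv ℝ u y‖ * ‖z - y‖ ≤ u z - u y

/-- Either the Lipschitz constant drops on a small ball, or the function is flat there. -/
def AlternativeProp : Prop :=
  ∀ τ : ℝ, 0 < τ → ∃ ρ δ : ℝ, 0 < ρ ∧ ρ ≤ 1 ∧ 0 < δ ∧ δ < 1 ∧
    ∀ u : E3 → ℝ, IsInfHarmonicOn (Metric.ball 0 2) u →
      LipschitzOnWith 1 u (Metric.ball 0 2) →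
      LipschitzOnWith (Real.toNNReal (1 - δ)) u (Metric.ball 0 ρ) ∨
        ∃ q : E3, |‖q‖ - 1| ≤ τ ∧ FlatOn u (Metric.closedBall 0 ρ) q (τ * ρ)

/-- The local Lipschitz bound by the oscillation. -/
def LipBoundProp : Prop :=
  ∃ C : ℝ, 0 < C ∧ ∀ (O : Set E3) (u : E3 → ℝ) (x : E3) (r M : ℝ),
    IsOpen O → IsInfHarmonicOn O u → 0 < r → Metric.closedBall x (2 * r) ⊆ O →
    (∀ a ∈ Metric.closedBall x (2 * r), ∀ b ∈ Metric.closedBall x (2 * r), u a - u b ≤ M) →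
    ∀ a ∈ Metric.closedBall x (3 / 2 * r), ∀ b ∈ Metric.closedBall x (3 / 2 * r),
      |u a - u b| ≤ C * M / r * ‖a - b‖

/-- The regularity theorem: infinity-harmonic functions on open subsets of three-dimensional space
are `C¹`, with an interior Hölder estimate for the gradient in terms of the oscillation. -/
def MainProp : Prop :=
  ∃ α C : ℝ, 0 < α ∧ 0 < C ∧
    ∀ (O : Set E3) (u : E3 → ℝ), IsOpen O → IsInfHarmonicOn O u →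
      ContDiffOn ℝ 1 u O ∧
      ∀ (x : E3) (r M : ℝ), 0 < r → Metric.closedBall x (2 * r) ⊆ O →
        (∀ a ∈ Metric.closedBall x (2 * r), ∀ b ∈ Metric.closedBall x (2 * r), u a - u b ≤ M) →
        ∀ y ∈ Metric.closedBall x r, ∀ y' ∈ Metric.closedBall x r,
          ‖fderiv ℝ u y - fderiv ℝ u y'‖ ≤ C * (M / r) * (‖y - y'‖ / r) ^ α

end Vale.Agent.P080C1
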